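import Vale.Agent.P286EH.Gc

/-!
# Logarithmic derivatives and constructors of etale functors
-/

set_option linter.all false

namespace Vale.Agent.P286EH

open CategoryTheory Vale.Agent.P286 Vale.Agent.P286.St Vale.Agent.P286.H847

noncomputable section

section Dlog

variable {A B : Type} [CommRing A] [Algebra ℂ A] [CommRing B] [Algebra ℂ B]

/-- The logarithmic derivative. -/
def dlog (v : Derivation ℂ A A) (u : A) : A := Ring.inverse u * v u

theorem mul_dlog (v : Derivation ℂ A A) {u : A} (h : IsUnit u) : u * dlog v u = v u := by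
  rw [dlog, ← mul_assoc, Ring.mul_inverse_cancel _ h, one_mul]

theorem dlog_eq (v : Derivation ℂ A A) {u a : A} (h : IsUnit u) (e : u * a = v u) :
    dlog v u = a := h.mul_left_cancel ((mul_dlog v h).trans e.symm)

theorem dlog_mul (v : Derivation ℂ A A) {u w : A} (h : IsUnit u) (h' : IsUnit w) :
    dlog v (u * w) = dlog v u + dlog v w := by
  refine dlog_eq v (h.mul h') ?_
  rw [Derivation.leibniz, smul_eq_mul, smul_eq_mul, ← mul_dlog v h, ← mul_dlog v h']
  ring

theorem dlog_one (v : Derivation ℂ A A) : dlog v 1 = 0 := by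
  rw [dlog, Derivation.map_one_eq_zero, mul_zero]

theorem dlog_of_zero (v : Derivation ℂ A A) {u : A} (h : v u = 0) : dlog v u = 0 := by
  rw [dlog, h, mul_zero]

theorem dlog_const (v : Derivation ℂ A A) (c : ℂ) : dlog v (algebraMap ℂ A c) = 0 :=
  dlog_of_zero v (v.map_algebraMap c)

theorem dlog_pow (v : Derivation ℂ A A) {u : A} (h : IsUnit u) (n : ℕ) :
    dlog v (u ^ n) = (n : ℂ) • dlog v u := by
  induction n with
  | zero => rw [pow_zero, dlog_one, Nat.cast_zero, zero_smul]
  | succ n ih => rw [pow_succ, dlog_mul v (h.pow n) h, ih, Nat.cast_succ, add_smul, one_smul]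

theorem dlog_smul (v : Derivation ℂ A A) {c : ℂ} (hc : c ≠ 0) {u : A} (h : IsUnit u) :
    dlog v (c • u) = dlog v u := by
  rw [Algebra.smul_def, dlog_mul v ((IsUnit.mk0 c hc).map _) h, dlog_const, zero_add]

theorem dlog_neg (v : Derivation ℂ A A) {u : A} (h : IsUnit u) : dlog v (-u) = dlog v u :=
  dlog_eq v h.neg (by rw [neg_mul, mul_dlog v h, map_neg])

/-- An element of finite order has no logarithmic derivative. -/
theorem dlog_of_pow (v : Derivation ℂ A A) {u : A} {n : ℕ} (hn : n ≠ 0) (h : u ^ n = 1) :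
    dlog v u = 0 := by
  have h1 := dlog_pow v (IsUnit.of_pow_eq_one h hn) n
  rw [h, dlog_one] at h1
  exact (smul_eq_zero_iff_right (Nat.cast_ne_zero.2 hn)).1 h1.symm

theorem dlog_add (v w : Derivation ℂ A A) (u : A) : dlog (v + w) u = dlog v u + dlog w u := by
  simp only [dlog, Derivation.add_apply, mul_add]

theorem dlog_smul_left (a : A) (v : Derivation ℂ A A) (u : A) : dlog (a • v) u = a * dlog v u := by
  simp only [dlog, Derivation.smul_apply, smul_eq_mul, mul_left_comm]

theorem dlog_lie (v w : Derivation ℂ A A) {u : A} (h : IsUnit u) :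
    dlog ⁅v, w⁆ u = v (dlog w u) - w (dlog v u) := by
  refine dlog_eq _ h ?_
  have h1 := congrArg v (mul_dlog w h)
  have h2 := congrArg w (mul_dlog v h)
  rw [Derivation.leibniz, smul_eq_mul, smul_eq_mul] at h1 h2
  rw [Derivation.commutator_apply, ← h1, ← h2, ← mul_dlog v h, ← mul_dlog w h]
  ring

theorem map_dlog (f : A →ₐ[ℂ] B) {v : Derivation ℂ A A} {w : Derivation ℂ B B} {u : A}
    (h : IsUnit u) (e : w (f u) = f (v u)) : f (dlog v u) = dlog w (f u) :=
  (dlog_eq w (h.map f) (by rw [← map_mul, mul_dlog v h, e])).symm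

theorem sum_dlog (f : A →ₐ[ℂ] B) (w : Derivation ℂ B B) {k : ℕ} (c : Fin k → B)
    (v : Fin k → Derivation ℂ A A) {u : A} (h : IsUnit u) (e : w (f u) = ∑ j, c j * f (v j u)) :
    ∑ j, c j * f (dlog (v j) u) = dlog w (f u) := by
  refine (dlog_eq w (h.map f) ?_).symm
  rw [e, Finset.mul_sum]
  refine Finset.sum_congr rfl fun j _ => ?_
  rw [mul_left_comm, ← map_mul, mul_dlog _ h]

end Dlog

variable {S T : TSite}

/-- An etale functor without the gauge form. -/
structure EtP (S T : TSite) where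
  ob : T.C → S.C
  map : ∀ {X Y : T.C}, (X ⟶ Y) → (ob X ⟶ ob Y)
  map_id : ∀ X, Sim (map (𝟙 X)) (𝟙 (ob X))
  map_comp : ∀ {X Y Z : T.C} (φ : X ⟶ Y) (ψ : Y ⟶ Z), Sim (map (φ ≫ ψ)) (map φ ≫ map ψ)
  cen : ∀ (X : T.C) (φ : X ⟶ X), φ ∈ T.cen X → Sim (map φ) (𝟙 (ob X))
  i : ∀ X, T.R X →ₐ[ℂ] S.R (ob X)
  et : ∀ X, (i X : T.R X →+* S.R (ob X)).FormallyEtale
  nat : ∀ {X Y : T.C} (φ : X ⟶ Y) (a : T.R X), S.f (map φ) (i X a) = i Y (T.f φ a)
  unit : ∀ {X Y : T.C} (φ : X ⟶ Y), IsUnit (S.dl (map φ))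

namespace EtP

variable (E : EtP S T)

theorem lf_add (X : T.C) (v w : (T.A X).Der) :
    etLift (E.et X) (v + w) = etLift (E.et X) v + etLift (E.et X) w :=
  (unr_of_fe (E.et X)).ext fun a => by simp [etLift_i]

theorem lf_smul (X : T.C) (a : T.R X) (v : (T.A X).Der) :
    etLift (E.et X) (a • v) = E.i X a • etLift (E.et X) v :=
  (unr_of_fe (E.et X)).ext fun a => by simp [etLift_i]

theorem lf_lie (X : T.C) (v w : (T.A X).Der) :
    etLift (E.et X) ⁅v, w⁆ = ⁅etLift (E.et X) v, etLift (E.et X) w⁆ :=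
  (unr_of_fe (E.et X)).ext fun a => by simp [etLift_i, Derivation.commutator_apply]

/-- The etale functor with the gauge form `∑ κ t • dlog (u t)`. -/
def mkU {ι : Type} [Fintype ι] (κ : ι → ℂ) (u : ι → ∀ X, S.R (E.ob X))
    (hu : ∀ t X, IsUnit (u t X)) (hT : ∀ {X Y : T.C} (φ : X ⟶ Y), IsUnit (T.dl φ))
    (h : ∀ {X Y : T.C} (φ : X ⟶ Y) (w : (S.A (E.ob Y)).Der),
      ∑ t, κ t • (dlog w (u t Y) - dlog w (S.f (E.map φ) (u t X))) =
        S.s • dlog w (S.dl (E.map φ)) - T.s • dlog w (E.i Y (T.dl φ))) : EtF S T where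
  ob := E.ob
  map := E.map
  map_id := E.map_id
  map_comp := E.map_comp
  cen := E.cen
  i := E.i
  unr X := unr_of_fe (E.et X)
  lf X := etLift (E.et X)
  lf_i X := etLift_i (E.et X)
  nat := E.nat
  unit := E.unit
  b X v := ∑ t, κ t • dlog (etLift (E.et X) v) (u t X)
  b_add X v w := by simp only [lf_add, dlog_add, smul_add, Finset.sum_add_distrib]
  b_smul X a v := by simp only [lf_smul, dlog_smul_left, Finset.mul_sum, mul_smul_comm]
  b_lie X v w := by
    simp only [lf_lie, dlog_lie _ _ (hu _ X), map_sum, Derivation.map_smul_of_tower, smul_sub,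
      Finset.sum_sub_distrib]
  b_tr {X Y} φ w k c v hw := by
    have h1 : ∀ x, etLift (E.et Y) w (S.f (E.map φ) x) =
        ∑ j, E.i Y (c j) * S.f (E.map φ) (etLift (E.et X) (v j) x) :=
      (unr_of_fe (E.et X)).rel (S.f (E.map φ)) _ _ _ fun a => by
        simp only [E.nat, etLift_i, hw, map_sum, map_mul]
    have h2 : ∑ j, E.i Y (c j) * S.f (E.map φ) (∑ t, κ t • dlog (etLift (E.et X) (v j)) (u t X)) =
        ∑ t, κ t • dlog (etLift (E.et Y) w) (S.f (E.map φ) (u t X)) := by
      simp only [map_sum, map_smul, Finset.mul_sum, mul_smul_comm]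
      rw [Finset.sum_comm]
      exact Finset.sum_congr rfl fun t _ => by
        rw [← Finset.smul_sum, sum_dlog _ _ _ _ (hu t X) (h1 _)]
    have h3 := h φ (etLift (E.et Y) w)
    simp only [smul_sub, Finset.sum_sub_distrib] at h3
    rw [h2, h3, ← etLift_i (E.et Y), ← mul_dlog _ (E.unit φ), ← mul_dlog _ ((hT φ).map (E.i Y))]
    simp only [Algebra.smul_def]
    ring

/-- The etale functor with the gauge form `0`. -/
def mk0 (hs : S.s = T.s) (h : ∀ {X Y : T.C} (φ : X ⟶ Y), S.dl (E.map φ) = E.i Y (T.dl φ)) :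
    EtF S T where
  ob := E.ob
  map := E.map
  map_id := E.map_id
  map_comp := E.map_comp
  cen := E.cen
  i := E.i
  unr X := unr_of_fe (E.et X)
  lf X := etLift (E.et X)
  lf_i X := etLift_i (E.et X)
  nat := E.nat
  unit := E.unit
  b _ _ := 0
  b_add _ _ _ := (add_zero _).symm
  b_smul _ _ _ := (mul_zero _).symm
  b_lie _ _ _ := by simp
  b_tr φ w k c v _ := by simp [h, hs, etLift_i]

end EtP

theorem fe_of_bij {A B : Type} [CommRing A] [CommRing B] {f : A →+* B} (h : Function.Bijective f) :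
    f.FormallyEtale := by
  letI := f.toAlgebra
  haveI : IsLocalization.Away (1 : A) B :=
    IsLocalization.away_of_isUnit_of_bijective B isUnit_one h
  exact Algebra.FormallyEtale.of_isLocalization (Submonoid.powers (1 : A))

/-- Natural arrows with `dl = 1` between functors with the same gauge form. -/
theorem gauge_one {B : Type} [CommRing B] [Algebra ℂ B] {δ β : B} (hδ : δ = 1) (hβ : β = 0) (s : ℂ)
    (w : Derivation ℂ B B) : δ * β = s • w δ := by
  rw [hδ, hβ, mul_zero, Derivation.map_one_eq_zero, smul_zero]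

theorem gauge_dlog {B : Type} [CommRing B] [Algebra ℂ B] {δ β : B} (hδ : IsUnit δ) {s : ℂ}
    {w : Derivation ℂ B B} (hβ : β = s • dlog w δ) : δ * β = s • w δ := by
  rw [hβ, mul_smul_comm, mul_dlog w hδ]

end

end Vale.Agent.P286EH
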