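import Vale.Agent.P286EG.Ag3

/-!
# Derived base change along a map with a linear map back; retracts
-/

set_option linter.all false

namespace Vale.Agent.P286EH

open Vale.Agent.P286 Vale.Agent.P286.H847 Vale.Agent.P286EG TensorProduct

noncomputable section

variable {A B : Type} [CommRing A] [CommRing B] {f : A →+* B}

/-- The map `b ⊗ x ↦ r b • x`. -/
def rho (r : B →+ A) (hr : ∀ a b, r (f a * b) = a * r b) (P : MCx A) (i : ℤ) :
    (bcx f P).X i →+ P.X i :=
  letI : Module A B := Module.compHom B f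
  TensorProduct.liftAddHom
    { toFun := fun b => DistribSMul.toAddMonoidHom (P.X i) (r b)
      map_zero' := by ext; simp
      map_add' := fun b b' => by ext; simp [add_smul] }
    (fun a b x => by
      change r (f a * b) • x = r b • a • x
      rw [hr, smul_smul, mul_comm])

theorem rho_el (r : B →+ A) (hr : ∀ a b, r (f a * b) = a * r b) (P : MCx A) (i : ℤ) (b : B)
    (x : P.X i) : rho r hr P i (ExtS.el f b x) = r b • x := rfl

theorem rho_d (r : B →+ A) (hr : ∀ a b, r (f a * b) = a * r b) (P : MCx A) (i j : ℤ)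
    (w : (bcx f P).X i) : rho r hr P j ((bcx f P).d i j w) = P.d i j (rho r hr P i w) :=
  bc_ext (u := (rho r hr P j).comp ((bcx f P).d i j).toAddMonoidHom)
    (v := (P.d i j).toAddMonoidHom.comp (rho r hr P i))
    (fun b x => ((P.d i j).map_smul (r b) x).symm) w

variable {M M' : AG A} {N N' : AG B} {t : GD.Hom M.G N.G}

/-- A cycle which becomes a boundary. -/
theorem DB.inj_r [Algebra ℂ A] (h : DB f M N t) (r : B →+ A) (hr : ∀ a b, r (f a * b) = a * r b)
    {m : ℤ} {x : M.G.V} (hx : x ∈ M.G.gr m) (hd : M.G.d x = 0) {y : N.G.V}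
    (hy : y ∈ N.G.gr (m - 1)) (e : N.G.d y = t.f x) :
    ∃ z ∈ M.G.gr (m - 1), M.G.d z = M.fn (r 1) x := by
  obtain ⟨P, p, h1, -, h2⟩ := exists_res M.mc
  have q := h.2 P p h1 h2
  have hm : m - 1 + 1 = m := by ring
  obtain ⟨ξ, hξ, y', e'⟩ := (h2 (m - 1) m (m + 1) hm rfl).2 (M.el x hx)
    (M.val_inj (by rw [M.val_d rfl, map_zero]; exact hd))
  have e1 : M.G.d (M.val _ y') = x - M.val m (p.f m ξ) :=
    (M.val_d hm y').symm.trans (congrArg (M.val m) e')
  obtain ⟨w, hw⟩ := (q (m - 1) m (m + 1) hm rfl).1 (ExtS.el f 1 ξ)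
    (by
      change ExtS.el f 1 (P.d m (m + 1) ξ) = 0
      rw [show P.d m (m + 1) ξ = 0 from hξ]
      letI : Module A B := Module.compHom B f
      exact tmul_zero _ _)
    ⟨N.el y hy - (ah M N t).f _ y', N.val_inj (by
      rw [bm_el, one_smul, N.val_d hm, map_sub, map_sub, AG.val_el, e, val_ah, ← t.comm, e1,
        map_sub, sub_sub_cancel]
      rfl)⟩
  have e2 := congrArg (rho r hr P m) hw
  rw [rho_d, rho_el] at e2
  refine ⟨_, M.val_mem (r 1 • y' + p.f _ (rho r hr P _ w)), ?_⟩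
  rw [map_add, map_add, M.val_smul, M.d, e1, ← M.val_d hm, ← p.comm _ _ hm, e2, map_smul,
    M.val_smul, map_sub, sub_add_cancel]

/-- A cycle which comes from a cycle. -/
theorem DB.surj_r [Algebra ℂ A] (h : DB f M N t) (r : B →+ A) (hr : ∀ a b, r (f a * b) = a * r b)
    (e : GD.Hom N.G N.G) (he : ∀ b x, e.f (N.fn b (t.f x)) = t.f (M.fn (r b) x))
    {m : ℤ} {y : N.G.V} (hy : y ∈ N.G.gr m) (hd : N.G.d y = 0) :
    ∃ x ∈ M.G.gr m, M.G.d x = 0 ∧ ∃ y' ∈ N.G.gr (m - 1), N.G.d (e.f y') = e.f y - t.f x := by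
  obtain ⟨P, p, h1, -, h2⟩ := exists_res M.mc
  have q := h.2 P p h1 h2
  have hm : m - 1 + 1 = m := by ring
  obtain ⟨w, hw, y', e'⟩ := (q (m - 1) m (m + 1) hm rfl).2 (N.el y hy)
    (N.val_inj (by rw [N.val_d rfl, map_zero]; exact hd))
  have e1 : N.G.d (N.val _ y') = y - N.val m ((bm _ (h.1.sl.comp p)).f m w) :=
    (N.val_d hm y').symm.trans (congrArg (N.val m) e')
  have e2 : e.f (N.val m ((bm _ (h.1.sl.comp p)).f m w)) =
      t.f (M.val m (p.f m (rho r hr P m w))) :=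
    bc_ext (u := e.f.toAddMonoidHom.comp ((N.val m).comp ((bm _ (h.1.sl.comp p)).f m)))
      (v := t.f.toAddMonoidHom.comp ((M.val m).comp ((p.f m).toAddMonoidHom.comp (rho r hr P m))))
      (fun b x => (he b _).trans (congrArg (fun z => t.f (M.val m z))
        ((p.f m).map_smul (r b) x).symm)) w
  refine ⟨_, M.val_mem (p.f m (rho r hr P m w)), ?_, _, N.val_mem y', ?_⟩
  · rw [← M.val_d rfl, ← p.comm _ _ rfl, ← rho_d, show (bcx f P).d m (m + 1) w = 0 from hw,
      map_zero, map_zero, map_zero]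
  · rw [← e.comm, e1, map_sub, e2]

variable {t' : GD.Hom M'.G N'.G} {u : GD.Hom M.G M'.G} {v : GD.Hom N.G N'.G}

/-- Retracts (on the homogeneous elements). -/
theorem DB.retract' [Algebra ℂ A] [Algebra.Smooth ℂ A] (h : DB f M' N' t') (ht : Sl f M N t)
    (hu : Li M M' u) (hv : Li N N' v)
    {r : GD.Hom M'.G M.G} {s : GD.Hom N'.G N.G} (hr : Li M' M r) (hs : Li N' N s)
    (e : ∀ x, v.f (t.f x) = t'.f (u.f x)) (e' : ∀ x, s.f (t'.f x) = t.f (r.f x))
    (ru : ∀ m, ∀ x ∈ M.G.gr m, r.f (u.f x) = x) (sv : ∀ m, ∀ x ∈ N.G.gr m, s.f (v.f x) = x) :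
    DB f M N t := by
  obtain ⟨Q, ε, m, h1, -, h2, h3⟩ := P286EG2.res A
  refine DB.of ht (ε _) (h1 _) (h2 _) ?_
  have q' := h.2 _ (ε _) (h1 _) (h2 _)
  have a1 : ∀ i x, (ah N N' v).f i ((bm _ (ht.sl.comp (ε _))).f i x) =
      (bm _ (h.1.sl.comp (ε _))).f i ((bcm f (m _ _ (mh hu))).f i x) := fun i x =>
    (bm_sq ht h.1 hu hv e (ε _) i x).trans (bc_ext
      (v := ((bm _ (h.1.sl.comp (ε _))).comp (bcm f (m _ _ (mh hu)))).f i)
      (fun b x => congrArg (fun y => b • (ah M' N' t').f i y) (h3 _ _ (mh hu) i x).symm) x)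
  have a2 : ∀ i x, (ah N' N s).f i ((bm _ (h.1.sl.comp (ε _))).f i x) =
      (bm _ (ht.sl.comp (ε _))).f i ((bcm f (m _ _ (mh hr))).f i x) := fun i x =>
    (bm_sq h.1 ht hr hs e' (ε _) i x).trans (bc_ext
      (v := ((bm _ (ht.sl.comp (ε _))).comp (bcm f (m _ _ (mh hr)))).f i)
      (fun b x => congrArg (fun y => b • (ah M N t).f i y) (h3 _ _ (mh hr) i x).symm) x)
  have q : ((bcm f (m _ _ (mh hr))).comp (bcm f (m _ _ (mh hu)))).Qis := by
    have h4 : ((m _ _ (mh hr)).comp (m _ _ (mh hu))).a.Qis :=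
      AH.Qis.left (v := (ε _).a) (h2 _) (AH.Qis.congr (u := (ε _).a) (h2 _) fun i x =>
        ((h3 _ _ (mh hr) i _).trans ((congrArg ((mh hr).f i) (h3 _ _ (mh hu) i x)).trans
          (M.val_inj (ru i _ (M.val_mem _))))).symm)
    have h5 : (bcm f ((m _ _ (mh hr)).comp (m _ _ (mh hu)))).Qis :=
      letI : Module A B := Module.compHom B f
      tens_qis P286EG1.kflat _ (h1 _) (h1 _) h4 B
    exact h5.congr fun i => bc_ext fun _ _ => rfl
  intro i j k hi hj
  refine ⟨?_, fun y hy => ?_⟩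
  · rintro x hx ⟨y, ey⟩
    obtain ⟨x', ex⟩ := (q' i j k hi hj).1 ((bcm f (m _ _ (mh hu))).f j x)
      (by rw [← AH.comm _ j k hj, hx, map_zero])
      ⟨(ah N N' v).f i y, by rw [← AH.comm _ i j hi, ey, a1]⟩
    exact (q i j k hi hj).1 x hx ⟨(bcm f (m _ _ (mh hr))).f i x', by
      rw [← AH.comm _ i j hi, ex]; rfl⟩
  · obtain ⟨x, hx, y', ey⟩ := (q' i j k hi hj).2 ((ah N N' v).f j y)
      (by rw [← AH.comm _ j k hj, hy, map_zero])
    refine ⟨(bcm f (m _ _ (mh hr))).f j x, by rw [← AH.comm _ j k hj, hx, map_zero],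
      (ah N' N s).f i y', ?_⟩
    rw [← AH.comm _ i j hi, ey, map_sub, a2]
    exact congrArg (· - _) (N.val_inj (sv j _ (N.val_mem _)))

end

end Vale.Agent.P286EH
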