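import Vale.Agent.P286EH.Gc
import Vale.Agent.P286EH.Dbq

/-!
# Galois descent
-/

set_option linter.all false

namespace Vale.Agent.P286EH

open CategoryTheory Vale.Agent.P286 Vale.Agent.P286.St Vale.Agent.P286.H847
  Vale.Agent.P286.H353 Vale.Agent.P286.H652 Vale.Agent.P286EG Vale.Agent.P286E

noncomputable section

variable {S T : TSite} {K : Type}

section Cut

variable {F F' : GTD T}

/-- The invariant sections. -/
def invs (σ : K → GHom F F) (X : T.C) : Submodule ℂ (F.F X).V where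
  carrier := {x | ∀ k, ((σ k).f X).f x = x}
  add_mem' hx hy k := by rw [map_add, hx k, hy k]
  zero_mem' k := map_zero _
  smul_mem' c x hx k := by rw [map_smul, hx k]

/-- The invariant part. -/
def cutG (σ : K → GHom F F) (X : T.C) : GD where
  V := (F.F X).V
  d := (F.F X).d
  dd := (F.F X).dd
  gr m := (F.F X).gr m ⊓ invs σ X
  dgr m x hx := ⟨(F.F X).dgr m x hx.1, fun k => by rw [((σ k).f X).comm, hx.2 k]⟩

/-- The invariant part of a family. -/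
def cut (σ : K → GHom F F) : GTD T where
  F := cutG σ
  fn := F.fn
  vf := F.vf
  tr φ := ⟨(F.tr φ).f, (F.tr φ).comm, fun m x hx =>
    ⟨(F.tr φ).deg m x hx.1, fun k => ((σ k).tr φ x).trans (congrArg _ (hx.2 k))⟩⟩
  fn_gr X a m x hx := ⟨F.fn_gr X a m x hx.1, fun k => ((σ k).fn X a x).trans (congrArg _ (hx.2 k))⟩
  vf_gr X a m x hx := ⟨F.vf_gr X a m x hx.1, fun k => ((σ k).vf X a x).trans (congrArg _ (hx.2 k))⟩
  fn_d := F.fn_d
  vf_d := F.vf_d
  dmod := F.dmod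
  trans := F.trans
  id := F.id
  comp := F.comp
  cen := F.cen

/-- The inclusion of the invariant part. -/
def cutI (σ : K → GHom F F) (X : T.C) : GD.Hom (cutG σ X) (F.F X) :=
  ⟨LinearMap.id, fun _ => rfl, fun _ _ hx => hx.1⟩

variable [Group K] [Fintype K]

/-- The average. -/
def avg (σ : K → GHom F F) (X : T.C) : (F.F X).V →ₗ[ℂ] (F.F X).V :=
  (Fintype.card K : ℂ)⁻¹ • ∑ k, ((σ k).f X).f

theorem avg_apply (σ : K → GHom F F) (X : T.C) (x : (F.F X).V) :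
    avg σ X x = (Fintype.card K : ℂ)⁻¹ • ∑ k, ((σ k).f X).f x := by
  simp [avg]

theorem avg_comm (σ : K → GHom F F) (σ' : K → GHom F' F') {X Y : T.C}
    (u : (F.F X).V →ₗ[ℂ] (F'.F Y).V) (h : ∀ k x, ((σ' k).f Y).f (u x) = u (((σ k).f X).f x))
    (x : (F.F X).V) : avg σ' Y (u x) = u (avg σ X x) := by
  simp only [avg_apply, map_smul, map_sum, h]

theorem avg_inv (σ : K → GHom F F) {X : T.C} {x : (F.F X).V} (hx : x ∈ invs σ X) :
    avg σ X x = x := by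
  have h : ∀ k, ((σ k).f X).f x = x := hx
  have h0 : (Fintype.card K : ℂ) ≠ 0 := Nat.cast_ne_zero.2 Fintype.card_ne_zero
  simp only [avg_apply, h, Finset.sum_const, Finset.card_univ]
  rw [← Nat.cast_smul_eq_nsmul ℂ, smul_smul, inv_mul_cancel₀ h0, one_smul]

/-- The maps define an action. -/
def IsAct (σ : K → GHom F F) : Prop :=
  ∀ k l X x, ((σ l).f X).f (((σ k).f X).f x) = ((σ (l * k)).f X).f x

theorem sum_mem_invs {σ : K → GHom F F} (h : IsAct σ) (X : T.C) (x : (F.F X).V) :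
    ∑ k, ((σ k).f X).f x ∈ invs σ X := fun l => by
  rw [map_sum]
  simp only [h _ l]
  exact Fintype.sum_equiv (Equiv.mulLeft l) _ _ fun _ => rfl

theorem avg_mem {σ : K → GHom F F} (h : IsAct σ) (X : T.C) (x : (F.F X).V) :
    avg σ X x ∈ invs σ X := by
  rw [avg_apply]
  exact Submodule.smul_mem _ _ (sum_mem_invs h X x)

theorem avg_gr (σ : K → GHom F F) (X : T.C) (m : ℤ) (x : (F.F X).V) (hx : x ∈ (F.F X).gr m) :
    avg σ X x ∈ (F.F X).gr m := by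
  rw [avg_apply]
  exact Submodule.smul_mem _ _ (Submodule.sum_mem _ fun k _ => ((σ k).f X).deg m x hx)

/-- The average. -/
def avgH (σ : K → GHom F F) (X : T.C) : GD.Hom (F.F X) (F.F X) :=
  ⟨avg σ X, avg_comm σ σ _ fun k => ((σ k).f X).comm, avg_gr σ X⟩

/-- The projection to the invariant part. -/
def cutP {σ : K → GHom F F} (h : IsAct σ) (X : T.C) : GD.Hom (F.F X) (cutG σ X) :=
  ⟨avg σ X, (avgH σ X).comm, fun m x hx => ⟨avg_gr σ X m x hx, avg_mem h X x⟩⟩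

theorem cut_gc {σ : K → GHom F F} (h : IsAct σ) (hF : GC F) : GC (cut σ) :=
  (gc_iff _).2 fun X Y φ => DB.retract' (M := ag (cut σ) X) (N := ag (cut σ) Y) (M' := ag F X)
    (N' := ag F Y) (hF.db φ) (sl_tr (cut σ) φ) (u := cutI σ X) (v := cutI σ Y) (fun _ _ => rfl) (fun _ _ => rfl) (r := cutP h X) (s := cutP h Y)
    (fun a x => avg_comm σ σ _ (fun k => (σ k).fn X a) x)
    (fun a x => avg_comm σ σ _ (fun k => (σ k).fn Y a) x) (fun _ => rfl)
    (fun x => avg_comm σ σ _ (fun k => (σ k).tr φ) x) (fun m x hx => avg_inv σ hx.2)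
    fun m x hx => avg_inv σ hx.2

theorem cut_qis {σ : K → GHom F F} {σ' : K → GHom F' F'} (h : IsAct σ) (h' : IsAct σ') {X : T.C}
    (u : GD.Hom (F.F X) (F'.F X)) (hu : GD.Qis u) (v : GD.Hom (cutG σ X) (cutG σ' X))
    (e : ∀ x, v.f x = u.f x) (c : ∀ k x, ((σ' k).f X).f (u.f x) = u.f (((σ k).f X).f x)) :
    GD.Qis v := by
  intro m
  refine ⟨?_, fun y hy hd => ?_⟩
  · rintro x hx hd ⟨y, hy, ey⟩
    obtain ⟨z, hz, ez⟩ := (hu m).1 x hx.1 hd ⟨y, hy.1, ey.trans (e x)⟩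
    exact ⟨avg σ X z, (cutP h X).deg _ _ hz,
      ((avgH σ X).comm z).symm.trans ((congrArg (avg σ X) ez).trans (avg_inv σ hx.2))⟩
  · obtain ⟨x, hx, hdx, z, hz, ez⟩ := (hu m).2 y hy.1 hd
    refine ⟨avg σ X x, (cutP h X).deg _ _ hx, ((avgH σ X).comm x).symm.trans
      ((congrArg (avg σ X) hdx).trans (map_zero _)), avg σ' X z, (cutP h' X).deg _ _ hz, ?_⟩
    refine ((avgH σ' X).comm z).symm.trans ((congrArg (avg σ' X) ez).trans ?_)
    exact ((avg σ' X).map_sub y _).trans (congrArg₂ (· - ·) (avg_inv σ' hy.2)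
      ((avg_comm σ σ' u.f c x).trans (e _).symm))

end Cut

/-- The action on the push-forward. -/
def EtF.act (E : EtF S T) (dk : K → Ar E E) (F : GTD S) (k : K) : GHom (E.push F) (E.push F) :=
  (dk k).hom F

/-- The invariant part of the push-forward of a cochain. -/
def EtF.cutC (E : EtF S T) (dk : K → Ar E E) {F F' : GTD S} (n : ℤ) :
    GTD.Coch F F' n →ₗ[ℂ] GTD.Coch (cut (E.act dk F)) (cut (E.act dk F')) n where
  toFun z := ⟨(E.pushC z).f, fun X m x hx => ⟨(E.pushC z).deg X m x hx.1, fun k =>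
    (z.tr ((dk k).τ X) x).symm.trans (congrArg (z.f _) (hx.2 k))⟩, (E.pushC z).fn, (E.pushC z).vf,
    (E.pushC z).tr⟩
  map_add' _ _ := rfl
  map_smul' _ _ := rfl

/-- The invariant part of the push-forward. -/
def EtF.cutD (E : EtF S T) (dk : K → Ar E E) : DGF (gtc S) (gtc T) where
  obj F := cut (E.act dk F)
  map n := E.cutC dk n
  map_one _ := rfl
  map_comp _ _ _ := rfl
  map_d m n z := by
    by_cases h : m + 1 = n
    · exact GTD.Coch.ext' fun X x =>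
        (gdl_f h z (E.ob X) x).trans (gdl_f h (E.cutC dk m z) X x).symm
    · exact (congrArg (E.cutC dk n) (gdl_ne h z)).trans (gdl_ne h (E.cutC dk m z)).symm

/-- The data of a Galois descent. -/
structure Gal (j : EtF T S) (cv : EtF S T) (K : Type) [Group K] [Fintype K] where
  un : Un j cv
  dk : K → Ar cv cv
  one : ∀ X, Sim ((dk 1).τ X) (𝟙 _)
  mul : ∀ k l X, Sim ((dk k).τ X ≫ (dk l).τ X) ((dk (l * k)).τ X)
  fmul : ∀ k l X b, S.f ((dk l).τ X) (S.f ((dk k).τ X) b) = S.f ((dk (l * k)).τ X) b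
  un_dk : ∀ k X, Sim (un.ι X ≫ j.map ((dk k).τ X)) (un.ι X)
  bij : ∀ Z, Function.Bijective (j.i Z)
  po : cv.IsPO
  inj : ∀ X, Function.Injective (cv.i X)
  inv : ∀ X b, (∀ k, S.f ((dk k).τ X) b = b) → ∃ a, cv.i X a = b
  ev : ∀ Z, cv.ob (j.ob Z) ⟶ Z
  ev_i : ∀ Z a, S.f (ev Z) (cv.i _ (j.i Z a)) = a
  ev_unit : ∀ Z, IsUnit (S.dl (ev Z))
  ev_b : ∀ Z v, S.dl (ev Z) * -S.f (ev Z) (cv.b _ (j.lf Z v) + cv.i _ (j.b Z v)) =
    S.s • v (S.dl (ev Z))
  ev_nat : ∀ {Z Z' : S.C} (ψ : Z ⟶ Z'), ∃ k,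
    Sim (cv.map (j.map ψ) ≫ ev Z') ((dk k).τ (j.ob Z) ≫ ev Z ≫ ψ)
  idem : ∀ Z, (∃ ε : S.R (cv.ob (j.ob Z)), ∑ k, S.f ((dk k).τ (j.ob Z)) ε = 1 ∧
    (∀ k, k ≠ 1 → S.f ((dk k).τ (j.ob Z)) ε * ε = 0) ∧
    (∀ b, ε * b = ε * cv.i _ (j.i Z (S.f (ev Z) b))) ∧ S.f (ev Z) ε = 1) ∨
    ((∀ k, Sim ((dk k).τ (j.ob Z)) (𝟙 _)) ∧ Function.Bijective (S.f (ev Z)))

namespace Gal

variable [Group K] [Fintype K] {j : EtF T S} {cv : EtF S T} (G : Gal j cv K)

theorem isAct (F : GTD S) : IsAct (cv.act G.dk F) := fun k l X x =>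
  (F.comp _ _ _ ((G.dk k).τ X) ((G.dk l).τ X) x).symm.trans (G.mul k l X F x)

theorem pres : Pres (gqis S) (gqis T) (cv.cutD G.dk).z0 := fun F F' a ha X =>
  cut_qis (G.isAct (gt F)) (G.isAct (gt F')) (gh a (cv.ob X)) (ha _) _ (fun _ => rfl)
    fun k x => ((gz a).tr ((G.dk k).τ X) x).symm

theorem un_inv (F : GTD T) (X : T.C) (x : (F.F X).V) :
    (F.tr (G.un.ι X)).f x ∈ invs (cv.act G.dk (j.push F)) X := fun k =>
  (F.comp _ _ _ (G.un.ι X) (j.map ((G.dk k).τ X)) x).symm.trans (G.un_dk k X F x)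

/-- The unit. -/
def unH (F : GTD T) : GHom F (cut (cv.act G.dk (j.push F))) where
  f X := ⟨(F.tr (G.un.ι X)).f, (F.tr (G.un.ι X)).comm, fun m x hx =>
    ⟨(F.tr (G.un.ι X)).deg m x hx, G.un_inv F X x⟩⟩
  fn := (G.un.hom F).fn
  vf := (G.un.hom F).vf
  tr := (G.un.hom F).tr

/-- The unit. -/
def unN : GNat (DGF.id (gtc T)) (j.pushD.comp (cv.cutD G.dk)) :=
  ⟨fun F => G.unH F, fun z X x => (GTD.Coch.tr z (G.un.ι X) x).symm⟩

theorem exists_r (X : T.C) : ∃ r : T.R (j.ob (cv.ob X)) →+ T.R X, ∀ b, cv.i X (r (j.i _ b)) =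
    (Fintype.card K : ℂ)⁻¹ • ∑ k, S.f ((G.dk k).τ X) b := by
  have h : ∀ b : S.R (cv.ob X), ∃ a, cv.i X a =
      (Fintype.card K : ℂ)⁻¹ • ∑ k, S.f ((G.dk k).τ X) b := fun b => G.inv X _ fun l => by
    rw [map_smul, map_sum]
    simp only [G.fmul _ l]
    exact congrArg _ (Fintype.sum_equiv (Equiv.mulLeft l) _ _ fun _ => rfl)
  choose r hr using h
  let e := RingEquiv.ofBijective (j.i (cv.ob X)) (G.bij _)
  refine ⟨(AddMonoidHom.mk' r fun a b => G.inj X ?_).comp e.symm.toAddMonoidHom, fun b => ?_⟩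
  · simp only [map_add, hr, Finset.sum_add_distrib, smul_add]
  · exact (congrArg (fun c => cv.i X (r c)) (e.symm_apply_apply b)).trans (hr b)

theorem un_qis (F : GTD T) (hF : GC F) (X : T.C) : GD.Qis ((G.unH F).f X) := by
  obtain ⟨r, hr⟩ := G.exists_r X
  have h0 : (Fintype.card K : ℂ) ≠ 0 := Nat.cast_ne_zero.2 Fintype.card_ne_zero
  have hl : ∀ a b, r ((T.f (G.un.ι X)).r a * b) = a * r b := fun a b => by
    obtain ⟨b, rfl⟩ := (G.bij _).2 b
    refine G.inj X ?_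
    rw [show (T.f (G.un.ι X)).r a = j.i _ (cv.i X a) from G.un.f_i X a, ← map_mul, hr, map_mul, hr]
    simp only [map_mul, (G.dk _).f_i, Finset.mul_sum, Finset.smul_sum, mul_smul_comm]
  have h1 : r 1 = 1 := G.inj X (by
    rw [← map_one (j.i _), hr]
    simp only [map_one, Finset.sum_const, Finset.card_univ]
    rw [← Nat.cast_smul_eq_nsmul ℂ, smul_smul, inv_mul_cancel₀ h0, one_smul])
  intro m
  refine ⟨?_, fun y hy hd => ?_⟩
  · rintro x hx hd ⟨y, hy, e⟩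
    obtain ⟨z, hz, ez⟩ := DB.inj_r (hF.db (G.un.ι X)) r hl hx hd hy.1 e
    exact ⟨z, hz, ez.trans (by rw [h1]; exact fn_one F X x)⟩
  · have he : ∀ b x, avg (cv.act G.dk (j.push F)) X (F.fn _ b ((F.tr (G.un.ι X)).f x)) =
        (F.tr (G.un.ι X)).f (F.fn X (r b) x) := fun b x => by
      obtain ⟨b, rfl⟩ := (G.bij _).2 b
      refine (avg_apply (cv.act G.dk (j.push F)) X _).trans (Eq.trans ?_ (tr_fn F _ _ x).symm)
      rw [G.un.f_i, hr, map_smul, map_sum, fn_smul, fn_sum]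
      refine congrArg _ (Finset.sum_congr rfl fun k _ => ?_)
      exact (tr_fn (j.push F) ((G.dk k).τ X) b _).trans
        (congrArg (F.fn _ (j.i _ (S.f ((G.dk k).τ X) b))) (G.un_inv F X x k))
    obtain ⟨x, hx, hdx, z, hz, ez⟩ := DB.surj_r (hF.db (G.un.ι X)) r hl
      (avgH (cv.act G.dk (j.push F)) X) he hy.1 hd
    exact ⟨x, hx, hdx, _, (cutP (G.isAct (j.push F)) X).deg _ _ hz,
      ez.trans (congrArg (· - _) (avg_inv (cv.act G.dk (j.push F)) hy.2))⟩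

theorem ev_lf (Z : S.C) (v : (S.A Z).Der) (b : S.R (cv.ob (j.ob Z))) :
    v (S.f (G.ev Z) b) = S.f (G.ev Z) (cv.lf _ (j.lf Z v) b) := by
  have h := ((j.unr Z).comp (cv.unr _)).rel (S.f (G.ev Z)) v (fun _ : Fin 1 => 1)
    (fun _ => cv.lf _ (j.lf Z v)) (fun a => by simp [G.ev_i, cv.lf_i, j.lf_i]) b
  simpa using h

/-- The counit. -/
def coH (F : GTD S) : GHom (j.push (cut (cv.act G.dk F))) F where
  f Z := ((F.tr (G.ev Z)).comp (avgH (cv.act G.dk F) (j.ob Z))).comp (cutI _ _)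
  fn Z a x := (congrArg (F.tr (G.ev Z)).f (avg_comm (cv.act G.dk F) (cv.act G.dk F) _
    (fun k => (cv.act G.dk F k).fn _ (j.i Z a)) x)).trans
      ((tr_fn F (G.ev Z) _ _).trans (by rw [G.ev_i]; rfl))
  vf Z v (x : (F.F (cv.ob (j.ob Z))).V) := by
    have h1 := avg_comm (cv.act G.dk F) (cv.act G.dk F) _
      (fun k => (cv.act G.dk F k).vf _ (j.lf Z v)) x
    have h2 := avg_comm (cv.act G.dk F) (cv.act G.dk F) _
      (fun k => (cv.act G.dk F k).fn _ (j.b Z v)) x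
    refine (congrArg (F.tr (G.ev Z)).f (((avg (cv.act G.dk F) _).map_add _ _).trans
      (congrArg₂ (· + ·) h1 h2))).trans ?_
    generalize hy : avg (cv.act G.dk F) (j.ob Z) x = y
    refine Eq.trans ?_ (congrArg (fun w => F.vf Z v ((F.tr (G.ev Z)).f w)) hy.symm)
    revert y
    intro (y : (F.F (cv.ob (j.ob Z))).V) _
    change (F.tr (G.ev Z)).f (cv.pvf F _ (j.lf Z v) y + F.fn _ (cv.i _ (j.b Z v)) y) = _
    rw [EtF.pvf_apply, add_assoc, ← fn_add, map_add, tr_fn,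
      vf_gauge F _ (G.ev_unit Z) v _ (G.ev_lf Z v) _ (G.ev_b Z v), add_assoc, ← fn_add,
      neg_add_cancel, fn_zero, add_zero]
  tr {Z Z'} ψ x := by
    obtain ⟨k, hk⟩ := G.ev_nat ψ
    refine (congrArg (F.tr (G.ev Z')).f (avg_comm (cv.act G.dk F) (cv.act G.dk F) _
      (fun k => (cv.act G.dk F k).tr (j.map ψ)) x)).trans ((hk.sq F _).trans ?_)
    exact (F.comp _ _ _ _ _ _).trans (congrArg (fun w => (F.tr ψ).f ((F.tr (G.ev Z)).f w))
      (avg_mem (G.isAct F) _ x k))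

/-- The counit. -/
def coN : GNat ((cv.cutD G.dk).comp j.pushD) (DGF.id (gtc S)) :=
  ⟨fun F => G.coH F, fun {F F'} z Z x => (congrArg (GTD.tr F' (G.ev Z)).f
    (avg_comm (cv.act G.dk F) (cv.act G.dk F') (GTD.Coch.f z _)
      (fun k x => (GTD.Coch.tr z ((G.dk k).τ _) x).symm) x)).trans
        (GTD.Coch.tr z (G.ev Z) _).symm⟩

theorem co_qis' (F : GTD S) (hF : GC F) (Z : S.C) (h : ∀ k, Sim ((G.dk k).τ (j.ob Z)) (𝟙 _))
    (h' : Function.Bijective (S.f (G.ev Z))) : GD.Qis ((G.coH F).f Z) := by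
  have q := hF.qis_tr (G.ev Z) h'
  have hi : ∀ x, x ∈ invs (cv.act G.dk F) (j.ob Z) := fun x k => (h k F x).trans (F.id _ x)
  have he : ∀ x, ((G.coH F).f Z).f x = (F.tr (G.ev Z)).f x := fun x =>
    congrArg (F.tr (G.ev Z)).f (avg_inv (cv.act G.dk F) (hi x))
  intro m
  refine ⟨?_, fun y hy hd => ?_⟩
  · rintro x hx hd ⟨y, hy, e⟩
    obtain ⟨z, hz, ez⟩ := (q m).1 x hx.1 hd ⟨y, hy, e.trans (he x)⟩
    exact ⟨z, ⟨hz, hi z⟩, ez⟩
  · obtain ⟨x, hx, hdx, z, hz, ez⟩ := (q m).2 y hy hd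
    exact ⟨x, ⟨hx, hi x⟩, hdx, z, hz, ez.trans (congrArg (y - ·) (he x).symm)⟩

theorem co_qis (F : GTD S) (hF : GC F) (Z : S.C) : GD.Qis ((G.coH F).f Z) := by
  rcases G.idem Z with ⟨ε, h1, h2, h3, h4⟩ | ⟨h, h'⟩
  swap
  · exact G.co_qis' F hF Z h h'
  let r : S.R Z →+ S.R (cv.ob (j.ob Z)) := AddMonoidHom.mk' (fun a => ε * cv.i _ (j.i Z a))
    fun a b => by rw [map_add, map_add, mul_add]
  have hl : ∀ a b, r ((S.f (G.ev Z)).r a * b) = a * r b := fun a b => by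
    change ε * cv.i _ (j.i Z (S.f (G.ev Z) a * b)) = a * (ε * cv.i _ (j.i Z b))
    rw [map_mul, map_mul, ← mul_assoc, ← h3, ← mul_assoc, mul_comm a]
  have hs : ∀ k (x : (F.F (cv.ob (j.ob Z))).V), ((cv.act G.dk F k).f (j.ob Z)).f (F.fn _ ε x) =
      F.fn _ (S.f ((G.dk k).τ _) ε) ((F.tr ((G.dk k).τ _)).f x) := fun k x => tr_fn F _ ε x
  intro m
  refine ⟨?_, fun y hy hd => ?_⟩
  · rintro x hx hd ⟨y, hy, e⟩
    obtain ⟨z, hz, ez⟩ := DB.inj_r (hF.db (G.ev Z)) r hl hx.1 hd hy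
      (e.trans (congrArg (F.tr (G.ev Z)).f (avg_inv (cv.act G.dk F) hx.2)))
    have ez' : (F.F _).d z = F.fn _ ε x := ez.trans (by
      change F.fn _ (ε * cv.i _ (j.i Z 1)) x = _
      rw [map_one, map_one, mul_one])
    refine ⟨∑ k, ((cv.act G.dk F k).f (j.ob Z)).f z, ⟨Submodule.sum_mem _ fun k _ =>
      ((cv.act G.dk F k).f _).deg _ _ hz, sum_mem_invs (G.isAct F) _ z⟩, ?_⟩
    refine (map_sum (F.F (cv.ob (j.ob Z))).d _ _).trans ?_
    refine (Finset.sum_congr rfl fun k _ => (((cv.act G.dk F k).f _).comm z).symm.trans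
      ((congrArg _ ez').trans ((hs k x).trans (congrArg _ (hx.2 k))))).trans ?_
    exact (fn_sum F _ _ _ x).symm.trans ((congrArg (F.fn _ · x) h1).trans (fn_one F _ x))
  · have he : ∀ b x, F.fn Z b ((F.tr (G.ev Z)).f x) = (F.tr (G.ev Z)).f (F.fn _ (r b) x) :=
      fun b x => by
        refine Eq.trans ?_ (tr_fn F _ _ x).symm
        change F.fn Z b _ = F.fn Z (S.f (G.ev Z) (ε * cv.i _ (j.i Z b))) _
        rw [map_mul, h4, one_mul, G.ev_i]
    obtain ⟨x, hx, hdx, z, hz, ez⟩ := DB.surj_r (hF.db (G.ev Z)) r hl (GD.Hom.id _) he hy hd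
    have hm := sum_mem_invs (G.isAct F) (j.ob Z) (F.fn _ ε x)
    refine ⟨_, ⟨Submodule.sum_mem _ fun k _ => ((cv.act G.dk F k).f _).deg _ _
      (F.fn_gr _ ε m x hx), hm⟩, ?_, z, hz, ez.trans (congrArg (y - ·) ?_)⟩
    · refine (map_sum (F.F (cv.ob (j.ob Z))).d _ _).trans (Finset.sum_eq_zero fun k _ => ?_)
      refine (((cv.act G.dk F k).f _).comm _).symm.trans ((congrArg _ ?_).trans (map_zero _))
      exact (F.fn_d _ ε x).trans ((congrArg _ hdx).trans (map_zero _))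
    · refine Eq.trans ?_ (congrArg (F.tr (G.ev Z)).f (avg_inv (cv.act G.dk F) hm)).symm
      refine Eq.trans ?_ (map_sum (F.tr (G.ev Z)).f _ _).symm
      refine Eq.trans ?_ (Finset.sum_eq_single 1 (fun k _ hk => ?_)
        (fun h => absurd (Finset.mem_univ _) h)).symm
      · refine Eq.trans ?_ (congrArg (F.tr (G.ev Z)).f ((G.one _ F _).trans (F.id _ _))).symm
        rw [tr_fn, h4, fn_one]
      · refine (congrArg (F.tr (G.ev Z)).f (hs k x)).trans ((tr_fn F _ _ _).trans ?_)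
        have h5 := congrArg (S.f (G.ev Z)) (h2 k hk)
        rw [map_mul, h4, mul_one, map_zero] at h5
        rw [h5, fn_zero]

theorem gp_j (G : Gal j cv K) : ∀ F, GP T F → GP S (j.pushD.obj F) := j.push_gc (j.isPO_of_bij G.bij)

theorem gp_cv : ∀ F, GP S F → GP T ((cv.cutD G.dk).obj F) := fun F hF =>
  cut_gc (G.isAct F) (cv.push_gc G.po F hF)

/-- **Galois descent.** -/
theorem eqv (G : Gal j cv K) : EQV (WD.st T) (WD.st S) :=
  eqv_zig j.pushD (cv.cutD G.dk) G.gp_j G.gp_cv j.push_qis G.pres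
    (zig_gc _ _ G.gp_j G.gp_cv G.unN G.un_qis) (zig_gc' _ _ G.gp_cv G.gp_j G.coN G.co_qis)

end Gal

end

end Vale.Agent.P286EH
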