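import Vale.Agent.P286EH.Push
import Vale.Agent.P286EG.Cart
import Vale.Agent.P286E.Eqv
import Vale.Agent.P286.H353.Fin
import Vale.Agent.P286.H621.Sig

/-!
# Cartesian families: comparison with cartesian complexes, a criterion for equivalences
-/

set_option linter.all false

namespace Vale.Agent.P286EH

open CategoryTheory Vale.Agent.P286 Vale.Agent.P286.St Vale.Agent.P286.H847
  Vale.Agent.P286.H353 Vale.Agent.P286.H652 Vale.Agent.P286EG Vale.Agent.P286E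
  Vale.Agent.P286.H621

noncomputable section

universe u v u₁ v₁

variable {S T : TSite}

/-- The cartesian families. -/
def gc (T : TSite) : WD.{1, 1} := ⟨gcc T, gcq T, fun _ X => GD.Qis.id _⟩

/-- The property of being cartesian. -/
def GP (T : TSite) : (gtc T).Obj → Prop := GC

theorem natW_zlift {E : Type u} [Category.{v} E] {F G : E ⥤ Z0 (gtc T)}
    (hF : ∀ X, GP T (ob (F.obj X))) (hG : ∀ X, GP T (ob (G.obj X))) (h : NatW (gqis T) F G) :
    NatW (gcq T) (zlift F hF) (zlift G hG) := by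
  obtain ⟨η, h⟩ := h
  exact ⟨zliftT hF hG η, h⟩

/-- The inclusion. -/
def ginc (T : TSite) : DGF (gcc T) (gtc T) := DGF.incl (gtc T) (GP T)

theorem gc_obj (F : (gcc T).Obj) : GP T ((ginc T).obj F) := F.2

/-- A DG functor with cartesian values. -/
def glift {C : DGC.{u, v}} (Φ : DGF C (gtc T)) (h : ∀ K, GP T (Φ.obj K)) : DGF C (gcc T) :=
  Φ.lift h

theorem glift_z0 {C : DGC.{u, v}} (Φ : DGF C (gtc T)) (h : ∀ K, GP T (Φ.obj K)) :
    (glift Φ h).z0 = zlift Φ.z0 fun K => h (ob K) := rfl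

section Gen

variable (O : DGF (cxc T) (gtc T)) (V : DGF (gtc T) (cxc T))
  (hO : ∀ K : (dgc T).Obj, GP T (((inc T).comp O).obj K))
  (hV : ∀ F : (gcc T).Obj, Cx.Cart (T := T) (((ginc T).comp V).obj F))

theorem un_eq : (glift ((inc T).comp O) hO).z0 ⋙ ((ginc T).comp V).z0 =
    ((inc T).comp O).z0 ⋙ V.z0 := rfl

theorem co_eq : (toC ((ginc T).comp V) hV).z0 ⋙ ((inc T).comp O).z0 =
    (ginc T).z0 ⋙ (V.comp O).z0 := rfl

theorem zlift_comp {E : Type u} [Category.{v} E] {E' : Type u₁} [Category.{v₁} E'] (H : E ⥤ E')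
    (F : E' ⥤ Z0 (gtc T)) (h : ∀ X, GP T (ob (F.obj X))) :
    H ⋙ zlift F h = zlift (H ⋙ F) fun X => h (H.obj X) := rfl

theorem zlift_ginc : zlift (ginc T).z0 (fun F => gc_obj (ob F)) = 𝟭 (Z0 (gcc T)) := rfl

theorem zlift_congr {E : Type u} [Category.{v} E] {F G : E ⥤ Z0 (gtc T)} (e : F = G)
    (h : ∀ X, GP T (ob (F.obj X))) : zlift F h = zlift G (e ▸ h) := by
  subst e
  rfl

theorem clift_congr {E : Type u} [Category.{v} E] {F G : E ⥤ Z0 (cxc T)} (e : F = G)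
    (h : ∀ X, Cx.Cart (T := T) (zcx (F.obj X))) : clift F h = clift G (e ▸ h) := by
  subst e
  rfl

theorem inv_gen (pO : Pres (xqis T) (gqis T) O.z0) (pV : Pres (gqis T) (xqis T) V.z0)
    (a : NatW (xqis T) (inc T).z0 (((inc T).comp O).z0 ⋙ V.z0))
    (b : NatW (gqis T) (V.comp O).z0 (𝟭 _)) :
    Inv (zqis T) (gcq T) (glift ((inc T).comp O) hO).z0 (toC ((ginc T).comp V) hV).z0 where
  pF K L u hu := pO ((inc T).z0.map u) hu
  pG P Q u hu := zqis_toC ((ginc T).comp V) hV u (pV ((ginc T).z0.map u) hu)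
  un := by
    rw [toC_z0, ← clift_comp, ← clift_inc, clift_congr (un_eq O V hO)]
    exact (natW_clift _ _ a).zig.symm
  co := by
    have e := zlift_comp (toC ((ginc T).comp V) hV).z0 ((inc T).comp O).z0 fun K => hO (ob K)
    have e' := e.trans (zlift_congr (co_eq O V hV) _)
    refine Eq.mpr (congrArg₂ (Zig (gcq T)) e' zlift_ginc.symm) ?_
    exact (natW_zlift _ _ (b.left (ginc T).z0)).zig

end Gen

theorem gp_inO (K : (dgc T).Obj) : GP T (((inc T).comp (ofD T)).obj K) := cart_ofD (cz K)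

theorem cart_toD (F : (gcc T).Obj) : Cx.Cart (T := T) (((ginc T).comp (toD T)).obj F) := F.2

/-- **Cartesian complexes and cartesian families.** -/
theorem st_gc (T : TSite) : EQV (WD.st T) (gc T) :=
  ⟨_, _, inv_gen (ofD T) (toD T) gp_inO cart_toD (fun _ _ a ha => gqis_ofD a ha) toD_pres
    ((natW_ofD' T).left (inc T).z0) (natW_sig T)⟩

/-- A natural morphism between two DG functors with values in families. -/
structure GNat {C : DGC.{u, v}} (Φ Ψ : DGF C (gtc T)) where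
  app : ∀ K : C.Obj, GHom (T := T) (Φ.obj K) (Ψ.obj K)
  nat : ∀ {K L : C.Obj} (z : C.Hom K L 0) (X : T.C) (x : (GTD.F (T := T) (Φ.obj K) X).V),
    ((app L).f X).f (GTD.Coch.f (T := T) (Φ.map 0 z) X x) =
      GTD.Coch.f (T := T) (Ψ.map 0 z) X (((app K).f X).f x)

theorem GNat.natW {C : DGC.{u, v}} {Φ Ψ : DGF C (gtc T)} (η : GNat Φ Ψ)
    (h : ∀ K X, GD.Qis ((η.app K).f X)) : NatW (gqis T) Φ.z0 Ψ.z0 :=
  natW_g (F := Φ.z0) (G := Ψ.z0) (fun K => η.app (ob K)) (fun a X x => η.nat (zf a) X x)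
    fun K X => h (ob K) X

/-- Whiskering. -/
def GNat.left {C : DGC.{u, v}} {B : DGC.{u₁, v₁}} {Φ Ψ : DGF C (gtc T)} (η : GNat Φ Ψ)
    (H : DGF B C) : GNat (H.comp Φ) (H.comp Ψ) :=
  ⟨fun K => η.app (H.obj K), fun z X x => η.nat (H.map 0 z) X x⟩

/-- The restriction to cartesian families. -/
def gres (Φ : DGF (gtc T) (gtc S)) (h : ∀ F, GP T F → GP S (Φ.obj F)) : DGF (gcc T) (gcc S) :=
  glift ((ginc T).comp Φ) fun F => h _ (gc_obj F)

/-- One half of the criterion. -/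
theorem zig_gc (Φ : DGF (gtc T) (gtc S)) (Ψ : DGF (gtc S) (gtc T))
    (cΦ : ∀ F, GP T F → GP S (Φ.obj F)) (cΨ : ∀ F, GP S F → GP T (Ψ.obj F))
    (η : GNat (DGF.id (gtc T)) (Φ.comp Ψ)) (h : ∀ F, GP T F → ∀ X, GD.Qis ((η.app F).f X)) :
    Zig (gcq T) ((gres Φ cΦ).z0 ⋙ (gres Ψ cΨ).z0) (𝟭 _) :=
  (natW_zlift (F := (ginc T).z0) (G := ((ginc T).comp (Φ.comp Ψ)).z0) (fun F => gc_obj (ob F))
    (fun F => cΨ _ (cΦ _ (gc_obj (ob F))))
    ((η.left (ginc T)).natW fun F => h _ (gc_obj F))).zig.symm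

/-- One half of the criterion, for a morphism in the other direction. -/
theorem zig_gc' (Φ : DGF (gtc T) (gtc S)) (Ψ : DGF (gtc S) (gtc T))
    (cΦ : ∀ F, GP T F → GP S (Φ.obj F)) (cΨ : ∀ F, GP S F → GP T (Ψ.obj F))
    (η : GNat (Φ.comp Ψ) (DGF.id (gtc T))) (h : ∀ F, GP T F → ∀ X, GD.Qis ((η.app F).f X)) :
    Zig (gcq T) ((gres Φ cΦ).z0 ⋙ (gres Ψ cΨ).z0) (𝟭 _) :=
  (natW_zlift (F := ((ginc T).comp (Φ.comp Ψ)).z0) (G := (ginc T).z0)
    (fun F => cΨ _ (cΦ _ (gc_obj (ob F)))) (fun F => gc_obj (ob F))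
    ((η.left (ginc T)).natW fun F => h _ (gc_obj F))).zig

/-- **The criterion.** -/
theorem eqv_zig (Φ : DGF (gtc T) (gtc S)) (Ψ : DGF (gtc S) (gtc T))
    (cΦ : ∀ F, GP T F → GP S (Φ.obj F)) (cΨ : ∀ F, GP S F → GP T (Ψ.obj F))
    (pΦ : Pres (gqis T) (gqis S) Φ.z0) (pΨ : Pres (gqis S) (gqis T) Ψ.z0)
    (h : Zig (gcq T) ((gres Φ cΦ).z0 ⋙ (gres Ψ cΨ).z0) (𝟭 _))
    (h' : Zig (gcq S) ((gres Ψ cΨ).z0 ⋙ (gres Φ cΦ).z0) (𝟭 _)) : EQV (WD.st T) (WD.st S) := by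
  refine ((st_gc T).trans ?_).trans (st_gc S).symm
  exact ⟨gres Φ cΦ, gres Ψ cΨ,
    fun K L a ha => pΦ ((ginc T).z0.map a) ha, fun K L a ha => pΨ ((ginc S).z0.map a) ha, h, h'⟩

/-- **The criterion.** -/
theorem eqv_gc (Φ : DGF (gtc T) (gtc S)) (Ψ : DGF (gtc S) (gtc T))
    (cΦ : ∀ F, GP T F → GP S (Φ.obj F)) (cΨ : ∀ F, GP S F → GP T (Ψ.obj F))
    (pΦ : Pres (gqis T) (gqis S) Φ.z0) (pΨ : Pres (gqis S) (gqis T) Ψ.z0)
    (η : GNat (DGF.id (gtc T)) (Φ.comp Ψ)) (θ : GNat (DGF.id (gtc S)) (Ψ.comp Φ))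
    (hη : ∀ F, GP T F → ∀ X, GD.Qis ((η.app F).f X))
    (hθ : ∀ F, GP S F → ∀ X, GD.Qis ((θ.app F).f X)) : EQV (WD.st T) (WD.st S) :=
  eqv_zig Φ Ψ cΦ cΨ pΦ pΨ (zig_gc Φ Ψ cΦ cΨ η hη) (zig_gc Ψ Φ cΨ cΦ θ hθ)

/-- The squares of rings of the functor are flat push-out squares. -/
def EtF.IsPO (E : EtF S T) : Prop := ∀ (X Y : T.C) (φ : X ⟶ Y),
  PO (T.f φ).r (E.i X : T.R X →+* S.R (E.ob X)) (E.i Y : T.R Y →+* S.R (E.ob Y)) (S.f (E.map φ)).r

/-- **The push-forward of a cartesian family is cartesian.** -/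
theorem EtF.push_gc (E : EtF S T) (h : E.IsPO) (F : GTD S) (hF : GC F) : GC (E.push F) :=
  (gc_iff _).2 fun X Y φ => (hF.db (E.map φ)).push (h X Y φ)

theorem po_of_bij {A B A' B' : Type} [CommRing A] [CommRing B] [CommRing A'] [CommRing B']
    {f : A →+* B} {a : A →+* A'} {b : B →+* B'} {f' : A' →+* B'} (h : ∀ x, f' (a x) = b (f x))
    (ha : Function.Bijective a) (hb : Function.Bijective b) : PO f a b f' := by
  letI := a.toAlgebra
  letI := b.toAlgebra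
  haveI : IsLocalization.Away (1 : A) A' :=
    IsLocalization.away_of_isUnit_of_bijective A' isUnit_one ha
  haveI : IsLocalization.Away (f 1) B' :=
    IsLocalization.away_of_isUnit_of_bijective B' (by rw [map_one]; exact isUnit_one) hb
  exact PO.away (1 : A) h

theorem EtF.isPO_of_bij (E : EtF S T) (h : ∀ X, Function.Bijective (E.i X)) : E.IsPO :=
  fun X Y φ => po_of_bij (fun x => E.nat φ x) (h X) (h Y)

/-! ### Natural arrows -/

/-- Natural arrows between two etale functors. -/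
structure Ar (E E' : EtF S T) where
  τ : ∀ X, E.ob X ⟶ E'.ob X
  f_i : ∀ X a, S.f (τ X) (E.i X a) = E'.i X a
  nat : ∀ {X Y : T.C} (φ : X ⟶ Y), Sim (E.map φ ≫ τ Y) (τ X ≫ E'.map φ)
  unit : ∀ X, IsUnit (S.dl (τ X))
  b : ∀ X v, S.dl (τ X) * (E'.b X v - S.f (τ X) (E.b X v)) = S.s • E'.lf X v (S.dl (τ X))

theorem vf_gauge (F : GTD S) {X Y : S.C} (φ : X ⟶ Y) (hφ : IsUnit (S.dl φ)) (w : (S.A Y).Der)
    (v : (S.A X).Der) (h : ∀ a, w (S.f φ a) = S.f φ (v a)) (β : S.R Y)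
    (hβ : S.dl φ * β = S.s • w (S.dl φ)) (x : (F.F X).V) :
    (F.tr φ).f (F.vf X v x) = F.vf Y w ((F.tr φ).f x) + F.fn Y β ((F.tr φ).f x) := by
  refine fn_cancel F _ hφ ?_
  rw [map_add, tr_vf F φ w v h, ← fn_mul, hβ, fn_smul, sub_add_cancel]

theorem Sim.sq {X Y Y' Z : S.C} {a : X ⟶ Y} {b : Y ⟶ Z} {a' : X ⟶ Y'} {b' : Y' ⟶ Z}
    (h : Sim (a ≫ b) (a' ≫ b')) (F : GTD S) (x : (F.F X).V) :
    (F.tr b).f ((F.tr a).f x) = (F.tr b').f ((F.tr a').f x) :=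
  (F.comp _ _ _ a b x).symm.trans ((h F x).trans (F.comp _ _ _ a' b' x))

theorem Ar.lf {E E' : EtF S T} (α : Ar E E') (X : T.C) (v : (T.A X).Der) (a : S.R (E.ob X)) :
    E'.lf X v (S.f (α.τ X) a) = S.f (α.τ X) (E.lf X v a) := by
  have h := (E.unr X).rel (S.f (α.τ X)) (E'.lf X v) (fun _ : Fin 1 => 1) (fun _ => E.lf X v)
    (fun a => by simp [α.f_i, E.lf_i, E'.lf_i]) a
  simpa using h

/-- The morphism of the push-forwards. -/
def Ar.hom {E E' : EtF S T} (α : Ar E E') (F : GTD S) : GHom (E.push F) (E'.push F) where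
  f X := F.tr (α.τ X)
  fn X a x := (tr_fn F (α.τ X) _ x).trans (by rw [α.f_i]; rfl)
  vf X v (x : (F.F (E.ob X)).V) := by
    change (F.tr (α.τ X)).f (E.pvf F X v x) = E'.pvf F X v ((F.tr (α.τ X)).f x)
    rw [EtF.pvf_apply, EtF.pvf_apply, map_add, tr_fn,
      vf_gauge F _ (α.unit X) _ _ (α.lf X v) _ (α.b X v), fn_sub]
    abel
  tr φ x := (α.nat φ).sq F x

/-- Natural arrows `X ⟶ j (c X)`. -/
structure Un (j : EtF T S) (c : EtF S T) where
  ι : ∀ X, X ⟶ j.ob (c.ob X)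
  f_i : ∀ X a, T.f (ι X) a = j.i _ (c.i X a)
  nat : ∀ {X Y : T.C} (φ : X ⟶ Y), Sim (φ ≫ ι Y) (ι X ≫ j.map (c.map φ))
  unit : ∀ X, IsUnit (T.dl (ι X))
  b : ∀ X v, T.dl (ι X) * (j.b _ (c.lf X v) + j.i _ (c.b X v)) =
    T.s • j.lf _ (c.lf X v) (T.dl (ι X))

/-- The morphism to the double push-forward. -/
def Un.hom {j : EtF T S} {c : EtF S T} (α : Un j c) (F : GTD T) : GHom F (c.push (j.push F)) where
  f X := F.tr (α.ι X)
  fn X a x := (tr_fn F (α.ι X) _ x).trans (by rw [α.f_i]; rfl)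
  vf X v x := by
    change (F.tr (α.ι X)).f (F.vf X v x) = j.pvf F _ (c.lf X v) ((F.tr (α.ι X)).f x) +
      F.fn _ (j.i _ (c.b X v)) ((F.tr (α.ι X)).f x)
    rw [EtF.pvf_apply, vf_gauge F _ (α.unit X) (j.lf _ (c.lf X v)) v
      (fun a => by rw [α.f_i, α.f_i, j.lf_i, c.lf_i]) _ (α.b X v), fn_add, add_assoc]
  tr φ x := (α.nat φ).sq F x

/-- The natural morphism to the double push-forward. -/
def Un.gnat {j : EtF T S} {c : EtF S T} (α : Un j c) :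
    GNat (DGF.id (gtc T)) (j.pushD.comp c.pushD) :=
  ⟨fun F => α.hom F, fun z X x => (GTD.Coch.tr z (α.ι X) x).symm⟩

/-- **Equivalences of test categories.** -/
theorem eqv_push (j : EtF T S) (c : EtF S T) (hj : j.IsPO) (hc : c.IsPO) (α : Un j c) (β : Un c j)
    (hα : ∀ X, Function.Bijective (T.f (α.ι X))) (hβ : ∀ X, Function.Bijective (S.f (β.ι X))) :
    EQV (WD.st T) (WD.st S) :=
  eqv_gc j.pushD c.pushD (j.push_gc hj) (c.push_gc hc) j.push_qis c.push_qis α.gnat β.gnat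
    (fun F hF X => hF.qis_tr (α.ι X) (hα X)) fun F hF X => hF.qis_tr (β.ι X) (hβ X)

end

end Vale.Agent.P286EH
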