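import Vale.Agent.P286.H847.BrgD
import Vale.Agent.P286.H652.GTot

/-!
# Push-forward of families along etale functors of test categories
-/

set_option linter.all false

namespace Vale.Agent.P286EH

open CategoryTheory Vale.Agent.P286 Vale.Agent.P286.St Vale.Agent.P286.H847
  Vale.Agent.P286.H353 Vale.Agent.P286.H652

noncomputable section

section Et

variable {A B : Type} [CommRing A] [Algebra ℂ A] [CommRing B] [Algebra ℂ B]

/-- A derivation along `g` which vanishes on the image of `i` vanishes. -/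
def Unr (i : A →ₐ[ℂ] B) : Prop :=
  ∀ (N : Type) [CommRing N] [Algebra ℂ N] (g : B →ₐ[ℂ] N) (D : B →+ N),
    (∀ x y, D (x * y) = g x * D y + g y * D x) → (∀ a, D (i a) = 0) → ∀ b, D b = 0

theorem Unr.ext {i : A →ₐ[ℂ] B} (h : Unr i) {v w : Derivation ℂ B B}
    (e : ∀ a, v (i a) = w (i a)) : v = w := by
  refine Derivation.ext fun b => sub_eq_zero.1 ?_
  refine h B (AlgHom.id ℂ B) ((v - w).toLinearMap.toAddMonoidHom) (fun x y => ?_) (fun a => ?_) b
  · exact (v - w).leibniz x y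
  · exact sub_eq_zero.2 (e a)

theorem Unr.comp {C : Type} [CommRing C] [Algebra ℂ C] {i : A →ₐ[ℂ] B} {k : B →ₐ[ℂ] C}
    (hi : Unr i) (hk : Unr k) : Unr (k.comp i) := fun N _ _ g D hD h0 =>
  hk N g D hD fun b => hi N (g.comp k) (D.comp (k : B →+* C).toAddMonoidHom)
    (fun x y => (congrArg D (map_mul k x y)).trans (hD _ _)) h0 b

theorem unr_of_surj {i : A →ₐ[ℂ] B} (h : Function.Surjective i) : Unr i := by
  intro N _ _ g D _ h0 b
  obtain ⟨a, rfl⟩ := h b
  exact h0 a

theorem unr_of_fe {i : A →ₐ[ℂ] B} (h : (i : A →+* B).FormallyEtale) : Unr i := by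
  intro N _ _ g D hD h0 b
  letI : Algebra A B := (i : A →+* B).toAlgebra
  haveI : Algebra.FormallyEtale A B := h
  letI : Algebra B N := (g : B →+* N).toAlgebra
  letI : Algebra A N := ((g : B →+* N).comp (i : A →+* B)).toAlgebra
  haveI : IsScalarTower A B N := IsScalarTower.of_algebraMap_eq fun _ => rfl
  let D' : Derivation A B N := Derivation.mk'
    { toFun := D
      map_add' := map_add D
      map_smul' := fun a x => by
        change D (i a * x) = g (i a) * D x
        rw [hD, h0, mul_zero, add_zero] } (fun x y => hD x y)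
  have h1 : D' b = D'.liftKaehlerDifferential (KaehlerDifferential.D A B b) :=
    (Derivation.liftKaehlerDifferential_comp_D D' b).symm
  have h2 : KaehlerDifferential.D A B b = 0 := Subsingleton.elim _ _
  rw [h2, map_zero] at h1
  exact h1

theorem lift_of_fe {i : A →ₐ[ℂ] B} (h : (i : A →+* B).FormallyEtale) (v : Derivation ℂ A A) :
    ∃ w : Derivation ℂ B B, ∀ a, w (i a) = i (v a) := by
  letI : Algebra A B := (i : A →+* B).toAlgebra
  haveI : Algebra.FormallyEtale A B := h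
  haveI : IsScalarTower ℂ A B := IsScalarTower.of_algebraMap_eq fun c => (i.commutes c).symm
  refine ⟨((KaehlerDifferential.isBaseChange_of_formallyEtale ℂ A B).lift
    ((Algebra.linearMap A B).comp v.liftKaehlerDifferential)).compDer
      (KaehlerDifferential.D ℂ B), fun a => ?_⟩
  have h := (KaehlerDifferential.isBaseChange_of_formallyEtale ℂ A B).lift_eq
    ((Algebra.linearMap A B).comp v.liftKaehlerDifferential) (KaehlerDifferential.D ℂ A a)
  rw [KaehlerDifferential.map_D] at h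
  refine Eq.trans h ?_
  rw [LinearMap.comp_apply, Derivation.liftKaehlerDifferential_comp_D]
  rfl

/-- The lift of a vector field along a formally etale map. -/
def etLift {i : A →ₐ[ℂ] B} (h : (i : A →+* B).FormallyEtale) (v : Derivation ℂ A A) :
    Derivation ℂ B B := Classical.choose (lift_of_fe h v)

theorem etLift_i {i : A →ₐ[ℂ] B} (h : (i : A →+* B).FormallyEtale) (v : Derivation ℂ A A) (a : A) :
    etLift h v (i a) = i (v a) := Classical.choose_spec (lift_of_fe h v) a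

/-- Extension of a relation between vector fields. -/
theorem Unr.rel {C : Type} [CommRing C] [Algebra ℂ C] {i : A →ₐ[ℂ] B} (h : Unr i) (f : B →ₐ[ℂ] C)
    (w : Derivation ℂ C C) {k : ℕ} (c : Fin k → C) (v : Fin k → Derivation ℂ B B)
    (e : ∀ a, w (f (i a)) = ∑ j, c j * f (v j (i a))) (x : B) :
    w (f x) = ∑ j, c j * f (v j x) := by
  refine sub_eq_zero.1 (h C f
    { toFun := fun x => w (f x) - ∑ j, c j * f (v j x)
      map_zero' := by simp
      map_add' := fun x y => by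
        simp only [map_add, mul_add, Finset.sum_add_distrib]
        abel } (fun x y => ?_) (fun a => sub_eq_zero.2 (e a)) x)
  change w (f (x * y)) - ∑ j, c j * f (v j (x * y)) =
    f x * (w (f y) - ∑ j, c j * f (v j y)) + f y * (w (f x) - ∑ j, c j * f (v j x))
  simp only [map_mul, Derivation.leibniz, smul_eq_mul, map_add, mul_add, Finset.sum_add_distrib,
    mul_sub, Finset.mul_sum, mul_left_comm]
  abel

end Et

variable {S T : TSite}

/-- The two morphisms act in the same way on all families. -/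
def Sim {X Y : S.C} (φ ψ : X ⟶ Y) : Prop := ∀ (F : GTD S) (x : (F.F X).V), (F.tr φ).f x = (F.tr ψ).f x

theorem Sim.of_eq {X Y : S.C} {φ ψ : X ⟶ Y} (h : φ = ψ) : Sim φ ψ := fun _ _ => by rw [h]

theorem Sim.of_cen {X : S.C} {φ : X ⟶ X} (h : φ ∈ S.cen X) : Sim φ (𝟙 X) := fun F x =>
  (F.cen X φ h x).trans (F.id X x).symm

section Fn

variable (F : GTD S) (X : S.C)

theorem fn_add (a b : S.R X) (x : (F.F X).V) : F.fn X (a + b) x = F.fn X a x + F.fn X b x :=
  (F.dmod X).fn_add a b x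

theorem fn_mul (a b : S.R X) (x : (F.F X).V) : F.fn X (a * b) x = F.fn X a (F.fn X b x) :=
  (F.dmod X).fn_mul a b x

theorem fn_one (x : (F.F X).V) : F.fn X 1 x = x := by
  have h := (F.dmod X).const 1 x
  rwa [map_one, one_smul] at h

theorem fn_smul (c : ℂ) (a : S.R X) (x : (F.F X).V) : F.fn X (c • a) x = c • F.fn X a x := by
  rw [Algebra.smul_def, fn_mul]
  exact (F.dmod X).const c _

/-- The action of the functions on a section. -/
def fnA (x : (F.F X).V) : S.R X →+ (F.F X).V := AddMonoidHom.mk' (fun a => F.fn X a x)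
  fun a b => fn_add F X a b x

theorem fn_zero (x : (F.F X).V) : F.fn X 0 x = 0 := map_zero (fnA F X x)

theorem fn_sub (a b : S.R X) (x : (F.F X).V) : F.fn X (a - b) x = F.fn X a x - F.fn X b x :=
  map_sub (fnA F X x) a b

theorem fn_sum {ι : Type} (t : Finset ι) (a : ι → S.R X) (x : (F.F X).V) :
    F.fn X (∑ j ∈ t, a j) x = ∑ j ∈ t, F.fn X (a j) x := map_sum (fnA F X x) a t

theorem fn_comm (a b : S.R X) (x : (F.F X).V) : F.fn X a (F.fn X b x) = F.fn X b (F.fn X a x) := by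
  rw [← fn_mul, mul_comm, fn_mul]

theorem fn_cancel {a : S.R X} (h : IsUnit a) {x y : (F.F X).V} (e : F.fn X a x = F.fn X a y) :
    x = y := by
  obtain ⟨b, hb⟩ := h.exists_left_inv
  rw [← fn_one F X x, ← fn_one F X y, ← hb, fn_mul, fn_mul, e]

theorem vf_fn (v : (S.A X).Der) (a : S.R X) (x : (F.F X).V) :
    F.vf X v (F.fn X a x) = F.fn X (v a) x + F.fn X a (F.vf X v x) := (F.dmod X).vf_fn v a x

theorem tr_fn {X Y : S.C} (φ : X ⟶ Y) (a : S.R X) (x : (F.F X).V) :
    (F.tr φ).f (F.fn X a x) = F.fn Y (S.f φ a) ((F.tr φ).f x) := (F.trans X Y φ).fn a x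

/-- The transition rule for one vector field. -/
theorem tr_vf {X Y : S.C} (φ : X ⟶ Y) (w : (S.A Y).Der) (v : (S.A X).Der)
    (h : ∀ a, w (S.f φ a) = S.f φ (v a)) (x : (F.F X).V) :
    F.fn Y (S.dl φ) (F.vf Y w ((F.tr φ).f x)) =
      F.fn Y (S.dl φ) ((F.tr φ).f (F.vf X v x)) - S.s • F.fn Y (w (S.dl φ)) ((F.tr φ).f x) := by
  have h1 := (F.trans X Y φ).vf w 1 (fun _ => 1) (fun _ => v) (fun a => by simp [h]) x
  simp only [Finset.univ_unique, Finset.sum_singleton] at h1
  rw [fn_one] at h1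
  exact h1

end Fn

/-- An etale functor from the test objects of `T` to the test objects of `S`, with a gauge form. -/
structure EtF (S T : TSite) where
  ob : T.C → S.C
  map : ∀ {X Y : T.C}, (X ⟶ Y) → (ob X ⟶ ob Y)
  map_id : ∀ X, Sim (map (𝟙 X)) (𝟙 (ob X))
  map_comp : ∀ {X Y Z : T.C} (φ : X ⟶ Y) (ψ : Y ⟶ Z), Sim (map (φ ≫ ψ)) (map φ ≫ map ψ)
  cen : ∀ (X : T.C) (φ : X ⟶ X), φ ∈ T.cen X → Sim (map φ) (𝟙 (ob X))
  i : ∀ X, T.R X →ₐ[ℂ] S.R (ob X)
  unr : ∀ X, Unr (i X)
  lf : ∀ X, (T.A X).Der → (S.A (ob X)).Der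
  lf_i : ∀ X v a, lf X v (i X a) = i X (v a)
  nat : ∀ {X Y : T.C} (φ : X ⟶ Y) (a : T.R X), S.f (map φ) (i X a) = i Y (T.f φ a)
  unit : ∀ {X Y : T.C} (φ : X ⟶ Y), IsUnit (S.dl (map φ))
  b : ∀ X, (T.A X).Der → S.R (ob X)
  b_add : ∀ X v w, b X (v + w) = b X v + b X w
  b_smul : ∀ X (a : T.R X) v, b X (a • v) = i X a * b X v
  b_lie : ∀ X v w, b X ⁅v, w⁆ = lf X v (b X w) - lf X w (b X v)
  b_tr : ∀ {X Y : T.C} (φ : X ⟶ Y) (w : (T.A Y).Der) (k : ℕ) (c : Fin k → T.R Y)
    (v : Fin k → (T.A X).Der), (∀ a, w (T.f φ a) = ∑ j, c j * T.f φ (v j a)) →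
    i Y (T.dl φ) * S.dl (map φ) * (b Y w - ∑ j, i Y (c j) * S.f (map φ) (b X (v j))) =
      S.s • (i Y (T.dl φ) * lf Y w (S.dl (map φ))) - T.s • (S.dl (map φ) * i Y (w (T.dl φ)))

namespace EtF

variable (E : EtF S T)

theorem lf_add (X : T.C) (v w : (T.A X).Der) : E.lf X (v + w) = E.lf X v + E.lf X w :=
  (E.unr X).ext fun a => by simp [E.lf_i]

theorem lf_smul (X : T.C) (a : T.R X) (v : (T.A X).Der) : E.lf X (a • v) = E.i X a • E.lf X v :=
  (E.unr X).ext fun a => by simp [E.lf_i]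

theorem lf_lie (X : T.C) (v w : (T.A X).Der) : E.lf X ⁅v, w⁆ = ⁅E.lf X v, E.lf X w⁆ :=
  (E.unr X).ext fun a => by simp [E.lf_i, Derivation.commutator_apply]

theorem lf_rel {X Y : T.C} (φ : X ⟶ Y) (w : (T.A Y).Der) {k : ℕ} (c : Fin k → T.R Y)
    (v : Fin k → (T.A X).Der) (h : ∀ a, w (T.f φ a) = ∑ j, c j * T.f φ (v j a))
    (x : S.R (E.ob X)) : E.lf Y w (S.f (E.map φ) x) =
      ∑ j, E.i Y (c j) * S.f (E.map φ) (E.lf X (v j) x) :=
  (E.unr X).rel (S.f (E.map φ)) _ _ _ (fun a => by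
    simp only [E.nat, E.lf_i, h, map_sum, map_mul]) x

/-- The action of the vector fields on the push-forward. -/
def pvf (F : GTD S) (X : T.C) (v : (T.A X).Der) : (F.F (E.ob X)).V →ₗ[ℂ] (F.F (E.ob X)).V :=
  F.vf (E.ob X) (E.lf X v) + F.fn (E.ob X) (E.b X v)

theorem pvf_apply (F : GTD S) (X : T.C) (v : (T.A X).Der) (x : (F.F (E.ob X)).V) :
    E.pvf F X v x = F.vf (E.ob X) (E.lf X v) x + F.fn (E.ob X) (E.b X v) x := rfl

theorem pdmod (F : GTD S) (X : T.C) :
    IsDMod (fun a => F.fn (E.ob X) (E.i X a)) (fun v => E.pvf F X v) where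
  const c m := by
    rw [AlgHom.commutes]
    exact (F.dmod _).const c m
  fn_add a b m := by rw [map_add, fn_add]
  fn_mul a b m := by rw [map_mul, fn_mul]
  vf_add v w m := by
    rw [pvf_apply, pvf_apply, pvf_apply, lf_add, E.b_add, fn_add, (F.dmod _).vf_add]
    abel
  vf_smul a v m := by
    rw [pvf_apply, pvf_apply, lf_smul, E.b_smul, fn_mul, (F.dmod _).vf_smul, map_add]
  vf_fn v a m := by
    rw [pvf_apply, pvf_apply, vf_fn, E.lf_i, map_add, fn_comm F _ (E.b X v), add_assoc]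
  vf_lie v w m := by
    simp only [pvf_apply, map_add, vf_fn]
    rw [lf_lie, E.b_lie, fn_sub, (F.dmod _).vf_lie, fn_comm F _ (E.b X v) (E.b X w)]
    abel

theorem ptrans (F : GTD S) (X Y : T.C) (φ : X ⟶ Y) : IsTrans T.s (T.f φ) (T.dl φ)
    (fun a => F.fn (E.ob X) (E.i X a)) (fun v => E.pvf F X v)
    (fun a => F.fn (E.ob Y) (E.i Y a)) (fun v => E.pvf F Y v) (F.tr (E.map φ)).f where
  fn a m := by rw [tr_fn, E.nat]
  vf w k c v h m := by
    have h1 := (F.trans _ _ (E.map φ)).vf (E.lf Y w) k (fun j => E.i Y (c j))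
      (fun j => E.lf X (v j)) (E.lf_rel φ w c v h) m
    have h2 := congrArg (fun a => F.fn (E.ob Y) a ((F.tr (E.map φ)).f m)) (E.b_tr φ w k c v h)
    refine fn_cancel F _ (E.unit φ) ?_
    simp only [fn_sub, fn_mul, fn_smul, fn_sum, map_sub, map_sum] at h2
    simp only [pvf_apply, map_add, map_sub, map_smul, tr_fn, Finset.sum_add_distrib, map_sum]
    simp only [map_sum] at h1
    simp only [fn_comm F _ (S.dl (E.map φ)) (E.i Y (T.dl φ))]
    rw [h1, map_sub, map_smul, map_sum, eq_add_of_sub_eq h2]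
    abel

/-- The push-forward of a family. -/
def push (F : GTD S) : GTD T where
  F X := F.F (E.ob X)
  fn X a := F.fn (E.ob X) (E.i X a)
  vf X v := E.pvf F X v
  tr φ := F.tr (E.map φ)
  fn_gr X a := F.fn_gr _ _
  vf_gr X v m x hx := add_mem (F.vf_gr _ _ m x hx) (F.fn_gr _ _ m x hx)
  fn_d X a := F.fn_d _ _
  vf_d X v x := by rw [pvf_apply, pvf_apply, map_add, F.vf_d, F.fn_d]
  dmod := E.pdmod F
  trans := E.ptrans F
  id X x := (E.map_id X F x).trans (F.id _ x)
  comp X Y Z φ ψ x := (E.map_comp φ ψ F x).trans (F.comp _ _ _ _ _ x)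
  cen X φ h x := (E.cen X φ h F x).trans (F.id _ x)

/-- The push-forward of a cochain. -/
def pushC {F F' : GTD S} {n : ℤ} (z : GTD.Coch F F' n) : GTD.Coch (E.push F) (E.push F') n where
  f X := z.f (E.ob X)
  deg X := z.deg _
  fn X a x := z.fn _ _ x
  vf X v (x : (F.F (E.ob X)).V) := by
    change z.f _ (E.pvf F X v x) = E.pvf F' X v (z.f _ x)
    rw [pvf_apply, pvf_apply, map_add, z.vf, z.fn]
  tr φ x := z.tr (E.map φ) x

/-- The push-forward of cochains is linear. -/
def pushL {F F' : GTD S} (n : ℤ) : GTD.Coch F F' n →ₗ[ℂ] GTD.Coch (E.push F) (E.push F') n where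
  toFun z := E.pushC z
  map_add' _ _ := rfl
  map_smul' _ _ := rfl

/-- The push-forward as a DG functor. -/
def pushD : DGF (gtc S) (gtc T) where
  obj F := E.push F
  map n := E.pushL n
  map_one _ := rfl
  map_comp _ _ _ := rfl
  map_d m n z := by
    by_cases h : m + 1 = n
    · exact GTD.Coch.ext' fun X x => (gdl_f h z (E.ob X) x).trans (gdl_f h (E.pushC z) X x).symm
    · exact (congrArg E.pushC (gdl_ne h z)).trans (gdl_ne h (E.pushC z)).symm

theorem push_qis ⦃F F' : Z0 (gtc S)⦄ (a : F ⟶ F') (h : gqis S a) : gqis T (E.pushD.z0.map a) :=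
  fun X => h (E.ob X)

end EtF

end

end Vale.Agent.P286EH
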